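import Vale.Agent.P361.Final

namespace Vale.Agent.Results.P361.LowerBloch

open Vale.Agent.P361 Filter Topology

theorem result (d : ℕ) (hd : 1 ≤ d) (c : ℝ)
    (hc : c < (∑' j : ℕ, 1 / ((j : ℝ) + 1) ^ (3 / 2 : ℝ)) /
      (8 * Real.pi ^ (3 / 2 : ℝ) * ((d : ℝ) / 2) ^ (3 / 2 : ℝ))) :
    ((∀ a, (spin d a).IsHermitian) ∧
      spin d 0 * spin d 1 - spin d 1 * spin d 0 = Complex.I • spin d 2 ∧
      spin d 1 * spin d 2 - spin d 2 * spin d 1 = Complex.I • spin d 0 ∧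
      spin d 2 * spin d 0 - spin d 0 * spin d 2 = Complex.I • spin d 1 ∧
      ∑ a : Fin 3, spin d a * spin d a = (((d : ℂ) / 2) * ((d : ℂ) / 2 + 1)) • 1) ∧
    (∀ᶠ β : ℝ in atTop, ∀ᶠ h : ℝ in 𝓝[>] 0, ∀ᶠ N : ℕ in atTop,
      pN d N β h - pN d N β 0 ≤ h * ((d : ℝ) / 2 - c / β ^ (3 / 2 : ℝ))) ∧
    (∀ᶠ β : ℝ in atTop, ∀ (p : ℝ → ℝ) (m : ℝ),
      (∀ h, Tendsto (fun N => pN d N β h) atTop (𝓝 (p h))) →
      HasDerivWithinAt p m (Set.Ici 0) 0 →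
      c ≤ β ^ (3 / 2 : ℝ) * ((d : ℝ) / 2 - m)) := by
  refine ⟨spin_ok d, main_fin d hd c hc, ?_⟩
  filter_upwards [main_fin d hd c hc, eventually_gt_atTop 0] with β h1 β0 p m hp hm
  have B0 : 0 < β ^ (3 / 2 : ℝ) := by positivity
  have h2 := hasDerivWithinAt_iff_tendsto_slope.1 hm
  rw [show Set.Ici (0 : ℝ) \ {0} = Set.Ioi 0 by
    ext x
    simp [lt_iff_le_and_ne, eq_comm]] at h2
  have h3 : m ≤ (d : ℝ) / 2 - c / β ^ (3 / 2 : ℝ) := by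
    refine le_of_tendsto h2 ?_
    filter_upwards [h1, self_mem_nhdsWithin] with h k h0
    have h0' : 0 < h := h0
    have := le_of_tendsto ((hp h).sub (hp 0)) k
    rw [slope_def_field, sub_zero, div_le_iff₀ h0']
    linarith
  rw [le_sub_comm, div_le_iff₀ B0] at h3
  linarith

end Vale.Agent.Results.P361.LowerBloch
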